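import Mathlib.Data.Set.Defs

namespace Vale.Agent.N038

/-- `N₁⁺(v)`: the out-neighbours of `v`. -/
def outN {V : Type*} (D : V → V → Prop) (v : V) : Set V := {u | D v u}

/-- `N₂⁺(v)`: the vertices at directed distance exactly two from `v`. -/
def secN {V : Type*} (D : V → V → Prop) (v : V) : Set V :=
  {w | w ≠ v ∧ ¬ D v w ∧ ∃ u, D v u ∧ D u w}

end Vale.Agent.N038
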