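import Vale.Agent.N038.Two

/-!
# P038: weighted forms and directed triangles
-/

namespace Vale.Agent.N038

open Finset Vale.Agent.P038.U877
open scoped Classical

variable {V : Type*} [Fintype V] {D : V → V → Prop}

theorem card_blow (k : V → ℕ) (S : Finset V) :
    (univ.filter fun b : Σ x : V, Fin (k x) => b.1 ∈ S).card = ∑ x ∈ S, k x := by
  have e : (univ.filter fun b : Σ x : V, Fin (k x) => b.1 ∈ S) = S.sigma fun _ => univ := by
    ext b
    simp
  rw [e, card_sigma]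
  simp

theorem nat_weight [Nonempty V] (hori : Ori D) (k : V → ℕ) (hk : ∀ x, 0 < k x) :
    ∃ v, ∑ x ∈ N1 D v, k x ≤ ∑ x ∈ N2 D v, k x := by
  by_contra hcon
  push Not at hcon
  have : Nonempty (Σ x : V, Fin (k x)) := ⟨⟨Classical.arbitrary V, ⟨0, hk _⟩⟩⟩
  refine no_bad (V := Σ x : V, Fin (k x)) (fun a b => D a.1 b.1)
    ⟨fun v => hori.1 _, fun u v => hori.2 _ _⟩ fun v => ?_
  have h1 := hcon v.1
  rw [← card_blow, ← card_blow] at h1
  refine lt_of_le_of_lt (card_le_card fun z hz => ?_) (h1.trans_le (card_le_card fun z hz => ?_))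
  · obtain ⟨-, h3, u, h4, h5⟩ := mem_N2.1 hz
    exact mem_filter.2 ⟨mem_univ _,
      mem_N2.2 ⟨fun e => hori.2 _ _ h4 (e ▸ h5), h3, u.1, h4, h5⟩⟩
  · exact mem_N1.2 (mem_N1.1 (mem_filter.1 hz).2)

/-- the weighted form -/
theorem real_weight [Nonempty V] (hori : Ori D) (w : V → ℝ) (hw : ∀ x, 0 ≤ w x) :
    ∃ v, ∑ x ∈ N1 D v, w x ≤ ∑ x ∈ N2 D v, w x := by
  by_contra hcon
  push Not at hcon
  obtain ⟨v₀, -, h0⟩ := exists_min_image univ
    (fun v => ∑ x ∈ N1 D v, w x - ∑ x ∈ N2 D v, w x) univ_nonempty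
  set γ := ∑ x ∈ N1 D v₀, w x - ∑ x ∈ N2 D v₀, w x with hγ
  have hγ0 : 0 < γ := sub_pos.2 (hcon v₀)
  set M : ℝ := Fintype.card V / γ with hM
  have hM0 : 0 ≤ M := by positivity
  obtain ⟨v, hv⟩ := nat_weight hori (fun x => ⌊M * w x⌋₊ + 1) fun x => Nat.succ_pos _
  have h1 : ((∑ x ∈ N1 D v, (⌊M * w x⌋₊ + 1) : ℕ) : ℝ) ≤
      (∑ x ∈ N2 D v, (⌊M * w x⌋₊ + 1) : ℕ) := Nat.cast_le.2 hv
  push_cast at h1
  have h2 : ∑ x ∈ N1 D v, M * w x ≤ ∑ x ∈ N1 D v, ((⌊M * w x⌋₊ : ℝ) + 1) :=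
    sum_le_sum fun x _ => (Nat.lt_floor_add_one _).le
  have h3 : ∑ x ∈ N2 D v, ((⌊M * w x⌋₊ : ℝ) + 1) ≤ ∑ x ∈ N2 D v, (M * w x + 1) :=
    sum_le_sum fun x _ => by linarith [Nat.floor_le (mul_nonneg hM0 (hw x))]
  rw [sum_add_distrib (f := fun x => M * w x), sum_const, nsmul_eq_mul, mul_one, ← mul_sum] at h3
  rw [← mul_sum] at h2
  have h4 : ((N2 D v).card : ℝ) < Fintype.card V := Nat.cast_lt.2
    (card_lt_card (ssubset_univ_iff.2 fun e => (mem_N2.1 (e ▸ mem_univ v)).1 rfl))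
  have h5 := mul_le_mul_of_nonneg_left (h0 v (mem_univ v)) hM0
  have h6 : M * γ = Fintype.card V := by rw [hM]; field_simp
  simp only [mul_sub] at h5
  linarith

/-- a probability vector under which every vertex has a large second neighbourhood -/
theorem all_weight [Nonempty V] (hori : Ori D) : ∃ p : V → ℝ, (∀ x, 0 ≤ p x) ∧ ∑ x, p x = 1 ∧
    ∀ v, ∑ x ∈ N1 D v, p x ≤ ∑ x ∈ N2 D v, p x := by
  let S : (V → ℝ) →ₗ[ℝ] V → ℝ :=
    { toFun := fun p v => ∑ x ∈ N1 D v, p x - ∑ x ∈ N2 D v, p x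
      map_add' := fun p p' => by
        funext v
        simp only [Pi.add_apply, sum_add_distrib]
        ring
      map_smul' := fun c p => by
        funext v
        simp only [Pi.smul_apply, smul_eq_mul, ← mul_sum, RingHom.id_apply, mul_sub] }
  by_contra hcon
  have hdis : Disjoint (S '' stdSimplex ℝ V) (Set.Iic 0) := by
    refine Set.disjoint_left.2 ?_
    rintro _ ⟨p, hp, rfl⟩ h1
    exact hcon ⟨p, hp.1, hp.2, fun v => sub_nonpos.1 (h1 v)⟩
  obtain ⟨f, s, t, h1, h2, h3⟩ := geometric_hahn_banach_compact_closed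
    ((convex_stdSimplex ℝ V).linear_image S)
    ((isCompact_stdSimplex ℝ V).image S.continuous_of_finiteDimensional) (convex_Iic 0)
    isClosed_Iic hdis
  have ht : t < 0 := by simpa using h3 0 Set.self_mem_Iic
  have hw : ∀ v, 0 ≤ -f (Pi.single v 1) := fun v => by
    by_contra h4
    have h5 : 0 < f (Pi.single v 1) := by linarith
    have h6 := h3 ((t / f (Pi.single v 1)) • Pi.single v 1)
      (Set.mem_Iic.2 (smul_nonpos_of_nonpos_of_nonneg
        (div_nonpos_of_nonpos_of_nonneg ht.le h5.le) (Pi.single_nonneg.2 zero_le_one)))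
    rw [map_smul, smul_eq_mul, div_mul_cancel₀ _ h5.ne'] at h6
    exact lt_irrefl _ h6
  obtain ⟨u, hu⟩ := real_weight (D := fun a b => D b a) ⟨hori.1, fun a b => hori.2 b a⟩ _ hw
  have h7 := h1 _ ⟨Pi.single u 1, single_mem_stdSimplex ℝ u, rfl⟩
  have e : S (Pi.single u 1) = ∑ v ∈ N1 (fun a b => D b a) u, Pi.single v 1 -
      ∑ v ∈ N2 (fun a b => D b a) u, Pi.single v 1 := by
    funext v
    change ∑ x ∈ N1 D v, (Pi.single u 1 : V → ℝ) x - ∑ x ∈ N2 D v, (Pi.single u 1 : V → ℝ) x = _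
    rw [Pi.sub_apply, Finset.sum_apply, Finset.sum_apply]
    simp only [Pi.single_apply, sum_ite_eq, sum_ite_eq', mem_N1, mem_N2]
    congr 2
    refine propext ⟨fun ⟨a, b, y, c, d⟩ => ⟨a.symm, b, y, d, c⟩,
      fun ⟨a, b, y, c, d⟩ => ⟨a.symm, b, y, d, c⟩⟩
  rw [e, map_sub, map_sum, map_sum] at h7
  rw [sum_neg_distrib, sum_neg_distrib] at hu
  linarith

/-- directed triangles from a degree condition -/
theorem triangle [Nonempty V] (hori : Ori D) (hd : ∀ v, Fintype.card V ≤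
    2 * (N1 D v).card + (N1 (fun a b => D b a) v).card) : ∃ x y z, D x y ∧ D y z ∧ D z x := by
  by_contra hcon
  refine no_bad D hori fun v => ?_
  have h1 : Disjoint (N1 D v) (N2 D v) :=
    disjoint_left.2 fun z h1 h2 => (mem_N2.1 h2).2.1 (mem_N1.1 h1)
  have h2 : Disjoint (N1 D v ∪ N2 D v) (N1 (fun a b => D b a) v) := by
    refine disjoint_left.2 fun z h3 h4 => ?_
    rw [mem_N1] at h4
    rcases mem_union.1 h3 with h3 | h3
    · exact hori.2 _ _ (mem_N1.1 h3) h4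
    · obtain ⟨-, -, u, h5, h6⟩ := mem_N2.1 h3
      exact hcon ⟨v, u, z, h5, h6, h4⟩
  have h3 : (N1 D v ∪ N2 D v ∪ N1 (fun a b => D b a) v).card < Fintype.card V := by
    refine card_lt_card (ssubset_univ_iff.2 fun e => ?_)
    have h4 := e ▸ mem_univ v
    simp only [mem_union, mem_N1, mem_N2, hori.1 v, ne_eq, not_true, false_and, or_self] at h4
  rw [card_union_of_disjoint h2, card_union_of_disjoint h1] at h3
  have := hd v
  omega

end Vale.Agent.N038
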