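import Vale.Agent.N038.Defs
import Vale.Agent.N038.Wt

namespace Vale.Agent.N038

open Vale.Agent.P038.U877

variable {V : Type*} [Fintype V] (D : V → V → Prop)

theorem outN_eq (v : V) : outN D v = N1 D v := Set.ext fun _ => mem_N1.symm

theorem secN_eq (v : V) : secN D v = N2 D v := Set.ext fun _ => mem_N2.symm

theorem inN_eq (v : V) : {u | D u v} = N1 (fun a b => D b a) v :=
  Set.ext fun _ => (mem_N1 (D := fun a b => D b a)).symm

theorem main [Nonempty V] (hori : Ori D) :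
    (∃ v, (outN D v).ncard ≤ (secN D v).ncard) ∧
    ((∀ v, ∃ x, D v x) → ∃ v v', v ≠ v' ∧ (outN D v).ncard ≤ (secN D v).ncard ∧
      (outN D v').ncard ≤ (secN D v').ncard) ∧
    ((∀ w : V → ℝ, (∀ x, 0 ≤ w x) → ∃ v, ∑ᶠ x ∈ outN D v, w x ≤ ∑ᶠ x ∈ secN D v, w x) ∧
      ∃ p : V → ℝ, (∀ x, 0 ≤ p x) ∧ ∑ᶠ x, p x = 1 ∧
        ∀ v, ∑ᶠ x ∈ outN D v, p x ≤ ∑ᶠ x ∈ secN D v, p x) ∧
    ((∀ v, Nat.card V ≤ 2 * (outN D v).ncard + {u | D u v}.ncard) →
      ∃ x y z, D x y ∧ D y z ∧ D z x) := by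
  simp only [outN_eq, secN_eq, inN_eq, Set.ncard_coe_finset, finsum_mem_coe_finset,
    Nat.card_eq_fintype_card]
  simp only [finsum_eq_sum_of_fintype]
  have h1 : ∃ v, (N1 D v).card ≤ (N2 D v).card := by
    by_contra h
    push Not at h
    exact no_bad D hori h
  refine ⟨h1, fun h => ?_, ⟨real_weight hori, all_weight hori⟩, triangle hori⟩
  obtain ⟨v, hv⟩ := h1
  obtain ⟨x, hx⟩ := h v
  obtain ⟨v', h2, h3⟩ := other_vertex hori hx
  exact ⟨v, v', h2.symm, hv, h3⟩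

end Vale.Agent.N038
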