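import Vale.Agent.P038.U877.Fin

/-!
# P038: two vertices with a large second neighbourhood
-/

namespace Vale.Agent.N038

open Finset Vale.Agent.P038.U877
open scoped Classical

variable {V : Type*} [Fintype V]

/-- Deleting arcs which leave a set whose boundary does not shrink keeps bad vertices bad. -/
theorem del_arcs (D : V → V → Prop) (hori : Ori D) (X : Finset V) (hX : (N D X \ X).Nonempty)
    (hcon : h D X ≤ h D (N D X)) : ∃ E : V → V → Prop, Ori E ∧ arcs E < arcs D ∧
      (∀ a b, E a b → D a b) ∧ (∀ a b, D a b → a ∉ X ∨ b ∈ X → E a b) ∧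
      ∀ v, (N2 D v).card < (N1 D v).card → (N2 E v).card < (N1 E v).card := by
  set L := N D X \ X with hL
  have hXN := subset_N D X
  have hLX : X ∪ L = N D X := by rw [hL]; exact union_sdiff_of_subset hXN
  have hNN : N D (N D X) = N D X ∪ N D L := by
    conv_lhs => rw [← hLX]
    exact N_union D X L
  let d : Finset V → ℤ := fun T => ((N D T \ X).card : ℤ) - 2 * T.card
  have hcardL : (L.card : ℤ) = h D X := by
    unfold h
    have := card_sdiff_add_card_eq_card hXN
    rw [← hL] at this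
    omega
  have hdL : 0 ≤ d L := by
    have e1 : N D L \ X = L ∪ (N D L \ N D X) := by
      ext z
      simp only [mem_sdiff, mem_union]
      constructor
      · rintro ⟨hz, hzX⟩
        by_cases hzN : z ∈ N D X
        · exact Or.inl (by rw [hL]; exact mem_sdiff.2 ⟨hzN, hzX⟩)
        · exact Or.inr ⟨hz, hzN⟩
      · rintro (hz | ⟨hz, hzN⟩)
        · exact ⟨subset_N D L hz, by rw [hL] at hz; exact (mem_sdiff.1 hz).2⟩
        · exact ⟨hz, fun hzX => hzN (hXN hzX)⟩
    have e2 : Disjoint L (N D L \ N D X) := by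
      rw [disjoint_left]
      intro z hz hz'
      rw [hL] at hz
      exact (mem_sdiff.1 hz').2 (mem_sdiff.1 hz).1
    have e3 : (N D (N D X)).card = (N D X).card + (N D L \ N D X).card := by
      rw [hNN, ← union_sdiff_self_eq_union, card_union_of_disjoint disjoint_sdiff]
    have e4 : (N D L \ X).card = L.card + (N D L \ N D X).card := by
      rw [e1, card_union_of_disjoint e2]
    have e5 : h D (N D X) = (N D L \ N D X).card := by
      unfold h; omega
    show 0 ≤ ((N D L \ X).card : ℤ) - 2 * L.card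
    rw [e4]
    push_cast
    omega
  obtain ⟨T, hTm, hTmin⟩ := exists_min_image L.ssubsets d
    ⟨∅, by rw [mem_ssubsets]; exact Finset.empty_ssubset.2 hX⟩
  rw [mem_ssubsets] at hTm
  have hd0 : d ∅ = 0 := by simp [d, N]
  have hT0 : d T ≤ 0 := by
    rw [← hd0]
    exact hTmin _ (by rw [mem_ssubsets]; exact Finset.empty_ssubset.2 hX)
  have key : ∀ D' : Finset V, D' ⊆ L \ T → 2 * D'.card ≤ (N D D' \ (N D T ∪ X)).card := by
    intro D' hD'
    have hsub : T ∪ D' ⊆ L := union_subset hTm.1 (hD'.trans sdiff_subset)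
    have hge : d T ≤ d (T ∪ D') := by
      by_cases heq : T ∪ D' = L
      · rw [heq]; exact hT0.trans hdL
      · exact hTmin _ (by rw [mem_ssubsets]; exact Finset.ssubset_iff_subset_ne.2 ⟨hsub, heq⟩)
    have e1 : N D (T ∪ D') \ X = (N D T \ X) ∪ (N D D' \ (N D T ∪ X)) := by
      rw [N_union]
      ext z
      simp only [mem_sdiff, mem_union]
      tauto
    have e2 : Disjoint (N D T \ X) (N D D' \ (N D T ∪ X)) := by
      rw [disjoint_left]
      intro z hz hz'
      simp only [mem_sdiff, mem_union] at hz hz'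
      tauto
    have e3 : (N D (T ∪ D') \ X).card = (N D T \ X).card + (N D D' \ (N D T ∪ X)).card := by
      rw [e1, card_union_of_disjoint e2]
    have e4 : (T ∪ D').card = T.card + D'.card := by
      rw [card_union_of_disjoint]
      rw [disjoint_left]
      intro z hz hz'
      exact (mem_sdiff.1 (hD' hz')).2 hz
    have hge' : ((N D T \ X).card : ℤ) - 2 * T.card ≤ ((N D (T ∪ D') \ X).card : ℤ) - 2 * (T ∪ D').card := hge
    rw [e3, e4] at hge'
    push_cast at hge'
    omega
  -- the new graph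
  let E : V → V → Prop := fun a b => D a b ∧ ¬ (a ∈ X ∧ b ∉ X ∧ b ∉ T)
  have hEori : Ori E := ⟨fun v hv => hori.1 v hv.1, fun u v huv hvu => hori.2 u v huv.1 hvu.1⟩
  have harc : arcs E < arcs D := by
    obtain ⟨z, hzL, hzT⟩ := Finset.exists_of_ssubset hTm
    have hz := hzL
    rw [hL, mem_sdiff] at hz
    obtain ⟨y, hy, hyz⟩ := mem_N.1 hz.1
    have hyz' : D y z := by
      rcases hyz with rfl | h'
      · exact absurd hy hz.2
      · exact h'
    apply card_lt_card
    rw [Finset.ssubset_iff_of_subset]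
    · exact ⟨(y, z), by simpa using hyz', by simp [E, hy, hz.2, hzT]⟩
    · intro p hp
      simp only [mem_filter, mem_univ, true_and] at hp ⊢
      exact hp.1
  refine ⟨E, hEori, harc, fun a b hab => hab.1, fun a b hab hh => ⟨hab, fun h' => ?_⟩, ?_⟩
  · exact hh.elim (fun h1 => h1 h'.1) fun h1 => h'.2.1 h1
  · intro v hbad
    by_cases hv : v ∈ X
    · set Dv := N1 D v \ (X ∪ T) with hDv
      have hDvL : Dv ⊆ L \ T := by
        intro z hz
        rw [hDv, mem_sdiff, mem_union] at hz
        push Not at hz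
        rw [mem_sdiff, hL, mem_sdiff]
        refine ⟨⟨mem_N.2 ⟨v, hv, Or.inr ?_⟩, hz.2.1⟩, hz.2.2⟩
        simpa [N1] using hz.1
      have hk := key Dv hDvL
      have e1 : N1 E v = N1 D v \ Dv := by
        ext z
        simp only [N1, E, mem_filter, mem_univ, true_and, hDv, mem_sdiff, mem_union]
        tauto
      have e2 : Dv ⊆ N1 D v := by rw [hDv]; exact sdiff_subset
      have e3 : (N1 E v).card + Dv.card = (N1 D v).card := by
        rw [e1]; exact card_sdiff_add_card_eq_card e2
      have e4 : N2 E v ∪ (N D Dv \ (N D T ∪ X)) ⊆ N2 D v ∪ Dv := by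
        intro z hz
        rw [mem_union] at hz ⊢
        rcases hz with hz | hz
        · simp only [N2, mem_filter, mem_univ, true_and, E] at hz ⊢
          obtain ⟨hzv, hnz, u, hvu, huz⟩ := hz
          by_cases hDz : D v z
          · right
            rw [hDv, mem_sdiff, mem_union]
            refine ⟨by simpa [N1] using hDz, ?_⟩
            intro hh
            apply hnz
            refine ⟨hDz, ?_⟩
            rintro ⟨_, h2, h3⟩
            rcases hh with hh | hh
            · exact h2 hh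
            · exact h3 hh
          · left
            exact ⟨hzv, hDz, u, hvu.1, huz.1⟩
        · rw [mem_sdiff, mem_union] at hz
          push Not at hz
          obtain ⟨hz1, hz2, hz3⟩ := hz
          have hzT : z ∉ T := fun hh => hz2 (subset_N D T hh)
          by_cases hDz : D v z
          · right
            rw [hDv, mem_sdiff, mem_union]
            refine ⟨by simpa [N1] using hDz, ?_⟩
            push Not
            exact ⟨hz3, hzT⟩
          · left
            obtain ⟨c, hc, hcz⟩ := mem_N.1 hz1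
            have hvc : D v c := by
              have := e2 hc
              simpa [N1] using this
            rcases hcz with rfl | hcz
            · exact absurd hvc hDz
            · simp only [N2, mem_filter, mem_univ, true_and]
              refine ⟨?_, hDz, c, hvc, hcz⟩
              rintro rfl
              exact hz3 hv
      have e5 : Disjoint (N2 E v) (N D Dv \ (N D T ∪ X)) := by
        rw [disjoint_left]
        intro z hz hz'
        rw [mem_sdiff, mem_union] at hz'
        push Not at hz'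
        obtain ⟨hz1, hz2, hz3⟩ := hz'
        simp only [N2, mem_filter, mem_univ, true_and, E] at hz
        obtain ⟨hzv, hnz, u, hvu, huz⟩ := hz
        have hzT : z ∉ T := fun hh => hz2 (subset_N D T hh)
        by_cases huX : u ∈ X
        · exact huz.2 ⟨huX, hz3, hzT⟩
        · by_cases huT : u ∈ T
          · exact hz2 (mem_N.2 ⟨u, huT, Or.inr huz.1⟩)
          · exact hvu.2 ⟨hv, huX, huT⟩
      have e6 := card_le_card e4
      rw [card_union_of_disjoint e5] at e6
      have e7 := card_union_le (N2 D v) Dv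
      have e8 := hbad
      omega
    · have e1 : N1 E v = N1 D v := by
        ext z
        simp [N1, E, hv]
      have e2 : N2 E v ⊆ N2 D v := by
        intro z hz
        simp only [N2, mem_filter, mem_univ, true_and, E] at hz ⊢
        obtain ⟨hzv, hnz, u, hvu, huz⟩ := hz
        refine ⟨hzv, ?_, u, hvu.1, huz.1⟩
        intro hD
        exact hnz ⟨hD, fun hh => hv hh.1⟩
      rw [e1]
      exact lt_of_le_of_lt (card_le_card e2) hbad

theorem mem_N1 {D : V → V → Prop} {v z : V} : z ∈ N1 D v ↔ D v z := by simp [N1]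

theorem mem_N2 {D : V → V → Prop} {v z : V} :
    z ∈ N2 D v ↔ z ≠ v ∧ ¬ D v z ∧ ∃ u, D v u ∧ D u z := by simp [N2]

/-- all vertices but `v₀` are bad, and `v₀` has the single out-neighbour `x` -/
def Alm (v₀ x : V) (D : V → V → Prop) : Prop :=
  Ori D ∧ (∀ v, v ≠ v₀ → (N2 D v).card < (N1 D v).card) ∧ ∀ z, D v₀ z ↔ z = x

variable {v₀ x : V} {D : V → V → Prop}

theorem closed_mem (hD : Alm v₀ x D) {S : Finset V} {a : V} (ha : a ∈ S) (hS : N D S ⊆ S) :
    v₀ ∈ S := by
  by_contra h0
  have : Nonempty V := ⟨a⟩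
  have hcl : ∀ u z, u ∈ S → D u z → z ∈ S := fun u z hu hz => hS (adj_mem_N hu hz)
  refine no_bad (fun u z => if u ∈ S then D u z else z ∈ S) ⟨fun v => ?_, fun u v => ?_⟩
    fun v => ?_
  · beta_reduce
    split_ifs with hv
    · exact hD.1.1 v
    · exact hv
  · by_cases hu : u ∈ S <;> by_cases hv : v ∈ S <;> simp only [hu, hv, if_true, if_false]
    · exact hD.1.2 u v
    · exact fun h1 _ => hv (hcl _ _ hu h1)
    · exact fun _ h1 => hu (hcl _ _ hv h1)
    · exact fun h1 => h1.elim
  · by_cases hv : v ∈ S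
    · refine lt_of_le_of_lt (card_le_card fun z hz => ?_)
        ((hD.2.1 v fun e => h0 (e ▸ hv)).trans_le (card_le_card fun z hz => ?_))
      · obtain ⟨h1, h2, u, h3, h4⟩ := mem_N2.1 hz
        rw [if_pos hv] at h2 h3
        rw [if_pos (hcl _ _ hv h3)] at h4
        exact mem_N2.2 ⟨h1, h2, u, h3, h4⟩
      · exact mem_N1.2 (by rw [if_pos hv]; exact mem_N1.1 hz)
    · refine lt_of_le_of_lt (card_eq_zero.2 (eq_empty_of_forall_notMem fun z hz => ?_)).le
        (card_pos.2 ⟨a, mem_N1.2 (by rw [if_neg hv]; exact ha)⟩)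
      obtain ⟨-, h2, u, h3, h4⟩ := mem_N2.1 hz
      rw [if_neg hv] at h2 h3
      rw [if_pos h3] at h4
      exact h2 (hcl _ _ h3 h4)

theorem N_single (D : V → V → Prop) (a : V) : N D {a} = insert a (N1 D a) := by
  ext z
  simp [mem_N, mem_N1, eq_comm]

theorem no_alm (D₀ : V → V → Prop) (h₀ : Alm v₀ x D₀) : False := by
  obtain ⟨D, hD, hmin⟩ : ∃ D : V → V → Prop, Alm v₀ x D ∧
      ∀ D' : V → V → Prop, Alm v₀ x D' → arcs D ≤ arcs D' := by
    have hex : ∃ n, ∃ D : V → V → Prop, Alm v₀ x D ∧ arcs D = n := ⟨_, D₀, h₀, rfl⟩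
    obtain ⟨D, h1, h3⟩ := Nat.find_spec hex
    exact ⟨D, h1, fun D' h' => h3 ▸ Nat.find_min' hex ⟨D', h', rfl⟩⟩
  have hori := hD.1
  have h0x : D v₀ x := (hD.2.2 x).2 rfl
  have hG : ∀ X : Finset V, v₀ ∉ X ∨ x ∈ X → ¬ N D X ⊆ X → h D (N D X) < h D X := by
    intro X hX hn
    by_contra hcon
    obtain ⟨E, e1, e2, e3, e4, e5⟩ := del_arcs D hori X (sdiff_nonempty.2 hn) (not_lt.1 hcon)
    exact absurd (hmin E ⟨e1, fun v hv => e5 v (hD.2.1 v hv), fun z =>
      ⟨fun hz => (hD.2.2 z).1 (e3 _ _ hz), fun hz => hz ▸ e4 _ _ h0x hX⟩⟩) (not_le.2 e2)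
  have hG' : ∀ X : Finset V, v₀ ∉ X ∨ x ∈ X → h D (N D X) ≤ h D X := fun X hX => by
    by_cases hn : N D X ⊆ X
    · rw [Subset.antisymm hn (subset_N D X)]
    · exact (hG X hX hn).le
  have hN0 : N D {v₀} = {v₀, x} := by
    ext z
    simp [mem_N, hD.2.2, eq_comm]
  -- removing `v₀`
  have hrem : ∀ X : Finset V, v₀ ∈ X → N D X = N D (X.erase v₀) ∪ {v₀, x} ∧
      (h D (N D (X.erase v₀)) ≤ h D X ∧ (N D X = N D (X.erase v₀) ∨
        h D (X.erase v₀) + (N D X \ N D (X.erase v₀)).card = h D X + 1 ∧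
        1 ≤ (N D X \ N D (X.erase v₀)).card)) := by
    intro X hX
    have e : N D X = N D (X.erase v₀) ∪ {v₀, x} := by
      rw [← hN0, ← N_union, union_comm, ← insert_eq, insert_erase hX]
    have c1 := card_erase_add_one hX
    have c2 := card_sdiff_add_card_eq_card (N_mono (D := D) (erase_subset v₀ X))
    have c3 : h D (X.erase v₀) + (N D X \ N D (X.erase v₀)).card = h D X + 1 := by
      unfold h
      omega
    have c4 := hG' (X.erase v₀) (Or.inl (notMem_erase _ _))
    by_cases h1 : N D X ⊆ N D (X.erase v₀)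
    · have c5 := hG (X.erase v₀) (Or.inl (notMem_erase _ _)) fun h2 =>
        notMem_erase v₀ X (h2 (h1 (subset_N D X hX)))
      exact ⟨e, by omega, Or.inl (Subset.antisymm h1 (N_mono (erase_subset _ _)))⟩
    · have c6 := card_pos.2 (sdiff_nonempty.2 h1)
      exact ⟨e, by omega, Or.inr ⟨c3, c6⟩⟩
  have hroot : ∀ X : Finset V, v₀ ∈ X → h D (N D X) ≤ h D X + (N1 D x).card := by
    intro X hX
    obtain ⟨e, h1, h2 | ⟨h2, h3⟩⟩ := hrem X hX
    · rw [← h2] at h1
      omega
    · have c4 := hG' (X.erase v₀) (Or.inl (notMem_erase _ _))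
      have c2 := card_sdiff_add_card_eq_card (N_mono (D := D) (erase_subset v₀ X))
      have c7 : N D (N D X) ⊆ N D (N D (X.erase v₀)) ∪ (N D X \ N D (X.erase v₀)) ∪ N1 D x := by
        intro z hz
        obtain ⟨u, hu, huz⟩ := mem_N.1 hz
        by_cases h4 : u ∈ N D (X.erase v₀)
        · exact mem_union_left _ (mem_union_left _ (mem_N.2 ⟨u, h4, huz⟩))
        rcases huz with rfl | huz
        · exact mem_union_left _ (mem_union_right _ (mem_sdiff.2 ⟨hu, h4⟩))
        rw [e, mem_union, mem_insert, mem_singleton] at hu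
        rcases hu with hu | rfl | rfl
        · exact absurd hu h4
        · obtain rfl := (hD.2.2 z).1 huz
          by_cases h5 : z ∈ N D (X.erase u)
          · exact mem_union_left _ (mem_union_left _ (subset_N D _ h5))
          · exact mem_union_left _ (mem_union_right _ (mem_sdiff.2 ⟨adj_mem_N hX huz, h5⟩))
        · exact mem_union_right _ (mem_N1.2 huz)
      have c8 := (card_le_card c7).trans ((card_union_le _ _).trans
        (Nat.add_le_add_right (card_union_le _ _) _))
      unfold h at *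
      omega
  -- one half of the comparison
  have half : ∀ X Y : V → Finset V, Inn D X Y → ∃ B : V → Finset V,
      (∀ a, N D {a} ⊆ B a ∧ B a ⊆ N D (X a)) ∧ ∑ a, h D (B a) < ∑ a, h D (X a) := by
    intro X Y ⟨i1, i2, i3⟩
    have hx0 : x ≠ v₀ := fun e => hori.1 _ (e ▸ h0x)
    have key : ∀ a, ∃ B : Finset V, (N D {a} ⊆ B ∧ B ⊆ N D (X a)) ∧ h D B ≤ h D (X a) +
        (if a = v₀ then ((N1 D x).card : ℤ) else 0) - if a ∈ insert x (N1 D x) then 1 else 0 := by
      intro a
      have hs : N D {a} ⊆ N D (X a) := N_mono (singleton_subset_iff.2 (i1 a))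
      by_cases h1 : a ∈ insert x (N1 D x)
      · have h2 : (v₀ ∉ X a ∨ x ∈ X a) ∧ ¬ N D (X a) ⊆ X a := by
          rcases mem_insert.1 h1 with rfl | h3
          · exact ⟨Or.inr (i1 a), fun h4 => i3 a v₀ hx0
              (subset_N D _ (closed_mem hD (i1 a) h4)) (adj_mem_N (i2 v₀) h0x)⟩
          · have h5 : v₀ ∉ X a := fun h6 => i3 a x (fun e => hori.1 _ (e ▸ mem_N1.1 h3))
              (adj_mem_N h6 h0x) (adj_mem_N (i2 x) (mem_N1.1 h3))
            exact ⟨Or.inl h5, fun h4 => h5 (closed_mem hD (i1 a) h4)⟩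
        have h7 := hG _ h2.1 h2.2
        refine ⟨_, ⟨hs, subset_rfl⟩, ?_⟩
        rw [if_pos h1]
        split_ifs <;> omega
      rw [if_neg h1, sub_zero]
      by_cases h2 : a = v₀
      · exact ⟨_, ⟨hs, subset_rfl⟩, by rw [if_pos h2]; exact hroot _ (h2 ▸ i1 a)⟩
      rw [if_neg h2, add_zero]
      by_cases h3 : v₀ ∈ X a
      · exact ⟨_, ⟨N_mono (singleton_subset_iff.2 (mem_erase.2 ⟨h2, i1 a⟩)),
          N_mono (erase_subset _ _)⟩, (hrem _ h3).2.1⟩
      · exact ⟨_, ⟨hs, subset_rfl⟩, hG' _ (Or.inl h3)⟩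
    choose B b1 b2 using key
    refine ⟨B, b1, (sum_le_sum fun a _ => b2 a).trans_lt ?_⟩
    rw [sum_sub_distrib, sum_add_distrib, sum_ite_eq', if_pos (mem_univ _), sum_ite_mem,
      univ_inter, sum_const, card_insert_of_notMem fun h1 => hori.1 _ (mem_N1.1 h1)]
    simp only [nsmul_eq_mul, mul_one]
    push_cast
    omega
  obtain ⟨p, hp, hpmin⟩ := exists_min_image
    (univ.filter (fun p : (V → Finset V) × (V → Finset V) => Inn D p.1 p.2))
    (fun p => cost D p.1 p.2) ⟨(fun a => {a}, fun b => {b}), by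
      rw [mem_filter]; exact ⟨mem_univ _, Inn_id hori⟩⟩
  have hI : Inn D p.1 p.2 := (mem_filter.1 hp).2
  obtain ⟨B, b1, b2⟩ := half _ _ hI
  obtain ⟨C, c1, c2⟩ := half p.2 p.1 ⟨hI.2.1, hI.1, fun a b hab h1 h2 => hI.2.2 b a hab.symm h2 h1⟩
  have hO : Out D B C := ⟨fun a => (b1 a).1, fun b => (c1 b).1,
    fun a b hab h1 h2 => hI.2.2 a b hab ((b1 a).2 h1) ((c1 b).2 h2)⟩
  obtain ⟨q, hq, hqmin⟩ := exists_min_image
    (univ.filter (fun p : (V → Finset V) × (V → Finset V) => Out D p.1 p.2))
    (fun p => cost D p.1 p.2) ⟨(B, C), mem_filter.2 ⟨mem_univ _, hO⟩⟩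
  obtain ⟨X', Y', hI', hc'⟩ := inner_le D hori q.1 q.2 (mem_filter.1 hq).2 fun B' C' hO' =>
    hqmin (B', C') (mem_filter.2 ⟨mem_univ _, hO'⟩)
  have h1 := hpmin (X', Y') (mem_filter.2 ⟨mem_univ _, hI'⟩)
  have h2 := hqmin (B, C) (mem_filter.2 ⟨mem_univ _, hO⟩)
  unfold cost at *
  simp only at h1 h2
  omega

/-- **Two vertices**: if `v₀` is not a sink, some other vertex has a large second neighbourhood. -/
theorem other_vertex (hori : Ori D) (h0 : D v₀ x) :
    ∃ v, v ≠ v₀ ∧ (N1 D v).card ≤ (N2 D v).card := by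
  by_contra hcon
  push Not at hcon
  refine no_alm (v₀ := v₀) (x := x) (fun a b => D a b ∧ (a = v₀ → b = x))
    ⟨⟨fun v hv => hori.1 v hv.1, fun u v h1 h2 => hori.2 u v h1.1 h2.1⟩, fun v hv => ?_,
      fun z => ⟨fun hz => hz.2 rfl, fun hz => ⟨hz ▸ h0, fun _ => hz⟩⟩⟩
  refine lt_of_le_of_lt (card_le_card fun z hz => ?_)
    ((hcon v hv).trans_le (card_le_card fun z hz => ?_))
  · obtain ⟨h1, h2, u, h3, h4⟩ := mem_N2.1 hz
    exact mem_N2.2 ⟨h1, fun h5 => h2 ⟨h5, fun e => absurd e hv⟩, u, h3.1, h4.1⟩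
  · exact mem_N1.2 ⟨mem_N1.1 hz, fun e => absurd e hv⟩

end Vale.Agent.N038
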